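import Vale.Agent.P282.H133.Pair

open scoped NNReal ENNReal
open IsLocalRing Vale.Agent.P282.Gap Vale.Agent.P282.Pair

namespace Vale.Agent.Results.P282.KltPairs

/-- The ordinary double point volume gap for klt germs, and for klt pairs `(X, D + ∑ c_i I_i)`, `D`
a boundary with standard coefficients `1 - 1/m`, `I_i` ideals, `c_i ≥ 0` real: if `x` is a singular
point or `D ≠ 0`, the normalized volume is at most `2 (n - 1) ^ n`, with equality (for `n ≥ 3`, and
for `n = 2` if `D = 0`) if and only if `D = 0`, `∑ c_i I_i` is trivial and `x` is an ordinary double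
point. -/
theorem result (n r : ℕ) (hn : 2 ≤ n) (R : Type) [CommRing R] [IsDomain R] [IsLocalRing R]
    [Algebra ℂ R]
    (ω : (Fin n → Derivation ℂ (FractionRing R) (FractionRing R)) → FractionRing R) :
    (IsKltGerm R n r ω → ¬ IsRegularLocalRing R →
      normalizedVolume R n r ω ≤ 2 * ((n : ℝ≥0∞) - 1) ^ n ∧
      (normalizedVolume R n r ω = 2 * ((n : ℝ≥0∞) - 1) ^ n ↔ IsODP R n)) ∧
    ∀ (k : ℕ) (I : Fin k → Ideal R) (c : Fin k → ℝ), IsKltPair R n r ω I c →
      ¬ (IsRegularLocalRing R ∧ NoBoundary R n r ω) →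
      pairVolume R n r ω I c ≤ 2 * ((n : ℝ≥0∞) - 1) ^ n ∧
      (3 ≤ n ∨ NoBoundary R n r ω →
        (pairVolume R n r ω I c = 2 * ((n : ℝ≥0∞) - 1) ^ n ↔
          NoBoundary R n r ω ∧ (∀ i, c i = 0 ∨ I i = ⊤) ∧ IsODP R n)) :=
  ⟨fun h hsing => ⟨normalizedVolume_le hn h hsing, isODP hn h hsing,
    normalizedVolume_odp hn h hsing⟩,
  fun _ _ _ h hreg => ⟨pairVolume_le hn h hreg, pairVolume_eq_iff hn h hreg⟩⟩

end Vale.Agent.Results.P282.KltPairs
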