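import Vale.Agent.P282.H804.Main

open scoped NNReal ENNReal
open IsLocalRing Vale.Agent.P282.Gap Vale.Agent.P282.Fano

namespace Vale.Agent.Results.P282.SingularFano

/-- (1) The ordinary double point volume gap for klt germs. (2) Every klt Fano variety `X` of
dimension `n ≥ 2` with a singular point satisfies `δ(X) ^ n (-K_X) ^ n ≤ 2 ((n ^ 2 - 1) / n) ^ n`;
in particular `(-K_X) ^ n ≤ 2 ((n ^ 2 - 1) / n) ^ n` if `X` is K-semistable. -/
theorem result (n r : ℕ) (hn : 2 ≤ n) :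
    (∀ (R : Type) [CommRing R] [IsDomain R] [IsLocalRing R] [Algebra ℂ R]
      (ω : (Fin n → Derivation ℂ (FractionRing R) (FractionRing R)) → FractionRing R),
      IsKltGerm R n r ω → ¬ IsRegularLocalRing R →
        normalizedVolume R n r ω ≤ 2 * ((n : ℝ≥0∞) - 1) ^ n ∧
        (normalizedVolume R n r ω = 2 * ((n : ℝ≥0∞) - 1) ^ n ↔ IsODP R n)) ∧
    ∀ (K : Type) [Field K] [Algebra ℂ K] (V : Submodule ℂ K)
      (ω : (Fin n → Derivation ℂ K K) → K), IsFano n r V ω →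
      ∀ l ∈ V, l ≠ 0 → ∀ p : chart V l →ₐ[ℂ] ℂ,
        ¬ IsRegularLocalRing (localRing (chart V l) p) →
        threshold n r V ω ^ n * degree n r V ≤ 2 * (((n : ℝ≥0∞) ^ 2 - 1) / n) ^ n :=
  ⟨fun _ _ _ _ _ _ h hsing => ⟨normalizedVolume_le hn h hsing, isODP hn h hsing,
    normalizedVolume_odp hn h hsing⟩,
  fun _ _ _ _ _ hX _ hl hl0 _ hp => threshold_degree_le hn hX hl hl0 hp⟩

end Vale.Agent.Results.P282.SingularFano
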